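import Mathlib

/-!
# P262: a lower bound for signed prefix sums beyond `√d`

For every `d ≥ 2` there is a sequence of `d + 1` vectors in the Euclidean unit ball of `ℝ^d`
such that for every choice of signs some prefix sum has squared Euclidean norm at least
`d + 11/25`.  Hence `σ(d, d + 1) ≥ √(d + 11/25)` and `σ(d) ≥ √(d + 11/25) > √d`.

The sequence: the basis vectors `e_2, ..., e_{d-1}`, then `e_0`, then `(7/25, 24/25)` and
`(4/5, 3/5)` in the plane of the coordinates `0, 1`.
-/

namespace Vale.Agent.Results.P262.SignedPrefixLower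

open Finset

/-- the sequence of vectors in `ℝ^(m+2)`, written in coordinates: `gv m i j` is coordinate `j`
of the `i`-th vector (`i = 0, ..., m + 2`; the vectors with `i > m + 2` repeat the last one and
are not used) -/
noncomputable def gv (m : ℕ) (i : ℕ) (j : Fin (m + 2)) : ℝ :=
  if i < m then (if j.val = i + 2 then 1 else 0)
  else if i = m then (if j.val = 0 then 1 else 0)
  else if i = m + 1 then (if j.val = 0 then 7 / 25 else if j.val = 1 then 24 / 25 else 0)
  else (if j.val = 0 then 4 / 5 else if j.val = 1 then 3 / 5 else 0)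

lemma sum_split {m : ℕ} (F : Fin (m + 2) → ℝ) :
    ∑ j, F j = F 0 + F 1 + ∑ j : Fin m, F j.succ.succ := by
  rw [Fin.sum_univ_succ, Fin.sum_univ_succ, ← add_assoc]
  rfl

lemma gv_norm (m i : ℕ) : ∑ j, (gv m i j) ^ 2 ≤ 1 := by
  rw [sum_split]
  by_cases h1 : i < m
  · have h0 : gv m i 0 = 0 := by simp [gv, h1]
    have h1' : gv m i 1 = 0 := by simp [gv, h1]
    have h2 : ∀ j : Fin m, (gv m i j.succ.succ) ^ 2 = if j.val = i then 1 else 0 := by
      intro j
      simp only [gv, h1, if_true, Fin.val_succ]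
      by_cases hj : j.val = i
      · simp [hj]
      · have : ¬ (j.val + 1 + 1 = i + 2) := by omega
        simp [hj, this]
    rw [h0, h1', Finset.sum_congr rfl (fun j _ => h2 j)]
    have h3 : ∑ j : Fin m, (if j.val = i then (1 : ℝ) else 0) = 1 := by
      rw [Fin.sum_univ_eq_sum_range (fun x => if x = i then (1 : ℝ) else 0) m]
      rw [Finset.sum_ite_eq' (range m) i (fun _ => (1 : ℝ))]
      simp [h1]
    rw [h3]
    norm_num
  · have h2 : ∀ j : Fin m, gv m i j.succ.succ = 0 := by
      intro j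
      simp [gv, h1]
    rw [Finset.sum_congr rfl (fun j _ => by rw [h2 j])]
    by_cases h3 : i = m
    · simp [gv, h3]
    · by_cases h4 : i = m + 1
      · simp [gv, h4]
        norm_num
      · simp [gv, h1, h3, h4]
        norm_num

/-- coordinates of the prefix sums of length `m + 2` -/
lemma pre2 (m : ℕ) (ε : ℕ → ℝ) (j : Fin (m + 2)) :
    ∑ i ∈ range (m + 2), ε i * gv m i j =
      (if j.val = 0 then ε m + 7 / 25 * ε (m + 1) else if j.val = 1 then 24 / 25 * ε (m + 1)
        else if j.val < m + 2 ∧ 2 ≤ j.val then ε (j.val - 2) else 0) := by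
  rw [Finset.sum_range_succ, Finset.sum_range_succ]
  have hfirst : ∑ i ∈ range m, ε i * gv m i j
      = if 2 ≤ j.val then ε (j.val - 2) else 0 := by
    have hc : ∀ i ∈ range m, ε i * gv m i j = if j.val - 2 = i ∧ 2 ≤ j.val then ε i else 0 := by
      intro i hi
      have him : i < m := Finset.mem_range.1 hi
      simp only [gv, him, if_true]
      by_cases hj : j.val = i + 2
      · have : j.val - 2 = i ∧ 2 ≤ j.val := by omega
        simp [hj, this]
      · have : ¬ (j.val - 2 = i ∧ 2 ≤ j.val) := by omega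
        simp [hj, this]
    rw [Finset.sum_congr rfl hc]
    by_cases h2 : 2 ≤ j.val
    · simp only [h2, and_true, if_true]
      rw [Finset.sum_ite_eq (range m) (j.val - 2) (fun i => ε i)]
      have : j.val - 2 ∈ range m := by
        rw [Finset.mem_range]; have := j.isLt; omega
      simp [this]
    · simp [h2]
  rw [hfirst]
  have hm : gv m m j = if j.val = 0 then 1 else 0 := by simp [gv]
  have hm1 : gv m (m + 1) j
      = if j.val = 0 then 7 / 25 else if j.val = 1 then 24 / 25 else 0 := by simp [gv]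
  rw [hm, hm1]
  have hj := j.isLt
  by_cases h0 : j.val = 0
  · simp [h0]
    ring
  · by_cases h1 : j.val = 1
    · simp [h1]
      ring
    · have h2 : 2 ≤ j.val := by omega
      simp [h0, h1, h2, hj]

theorem main (m : ℕ) (ε : ℕ → ℝ) (hε : ∀ i, ε i = 1 ∨ ε i = -1) :
    ∃ k ≤ m + 3, ((m + 2 : ℕ) : ℝ) + 11 / 25
      ≤ ∑ j, (∑ i ∈ range k, ε i * gv m i j) ^ 2 := by
  have hsq : ∀ i, ε i ^ 2 = 1 := by
    intro i
    rcases hε i with h | h <;> rw [h] <;> norm_num
  have hbase : ∑ j : Fin m, (ε j.val) ^ 2 = (m : ℝ) := by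
    simp [hsq]
  -- the prefix of length m + 2
  have hP2 : ∑ j, (∑ i ∈ range (m + 2), ε i * gv m i j) ^ 2
      = (ε m + 7 / 25 * ε (m + 1)) ^ 2 + (24 / 25 * ε (m + 1)) ^ 2 + m := by
    rw [sum_split]
    rw [pre2 m ε 0, pre2 m ε 1]
    have h3 : ∀ j : Fin m, (∑ i ∈ range (m + 2), ε i * gv m i j.succ.succ) ^ 2
        = (ε j.val) ^ 2 := by
      intro j
      rw [pre2 m ε j.succ.succ]
      have hj := j.isLt
      simp [Fin.val_succ, hj]
    rw [Finset.sum_congr rfl (fun j _ => h3 j), hbase]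
    simp
  -- the prefix of length m + 3
  have hP3 : ∑ j, (∑ i ∈ range (m + 3), ε i * gv m i j) ^ 2
      = (ε m + 7 / 25 * ε (m + 1) + 4 / 5 * ε (m + 2)) ^ 2
        + (24 / 25 * ε (m + 1) + 3 / 5 * ε (m + 2)) ^ 2 + m := by
    rw [sum_split]
    have hlast : ∀ j : Fin (m + 2), gv m (m + 2) j
        = if j.val = 0 then 4 / 5 else if j.val = 1 then 3 / 5 else 0 := by
      intro j
      simp [gv]
    have hstep : ∀ j : Fin (m + 2), ∑ i ∈ range (m + 3), ε i * gv m i j
        = ∑ i ∈ range (m + 2), ε i * gv m i j + ε (m + 2) * gv m (m + 2) j := by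
      intro j
      rw [Finset.sum_range_succ]
    rw [hstep 0, hstep 1, pre2 m ε 0, pre2 m ε 1, hlast 0, hlast 1]
    have h3 : ∀ j : Fin m, (∑ i ∈ range (m + 3), ε i * gv m i j.succ.succ) ^ 2
        = (ε j.val) ^ 2 := by
      intro j
      rw [hstep j.succ.succ, pre2 m ε j.succ.succ, hlast j.succ.succ]
      have hj := j.isLt
      simp [Fin.val_succ, hj]
    rw [Finset.sum_congr rfl (fun j _ => h3 j), hbase]
    simp
    ring
  have hcast : ((m + 2 : ℕ) : ℝ) = (m : ℝ) + 2 := by push_cast; ring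
  rcases hε m with ha | ha <;> rcases hε (m + 1) with hb | hb
  · refine ⟨m + 2, by omega, ?_⟩
    rw [hP2, ha, hb, hcast]; norm_num; linarith
  · refine ⟨m + 3, by omega, ?_⟩
    rw [hP3, ha, hb, hcast]
    rcases hε (m + 2) with hc | hc <;> rw [hc] <;> norm_num <;> linarith
  · refine ⟨m + 3, by omega, ?_⟩
    rw [hP3, ha, hb, hcast]
    rcases hε (m + 2) with hc | hc <;> rw [hc] <;> norm_num <;> linarith
  · refine ⟨m + 2, by omega, ?_⟩
    rw [hP2, ha, hb, hcast]; norm_num; linarith

/-- For every `d ≥ 2` there are `N` (namely `d + 1`) and vectors `v 0, ..., v (N - 1)` in the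
Euclidean unit ball of `ℝ^d` (coordinates `v i j`, `j : Fin d`) such that for every choice of
signs `ε i ∈ {1, -1}` some prefix sum `∑_{i < k} ε i • v i` with `k ≤ N` has squared Euclidean
norm at least `d + 11/25`. -/
theorem result (d : ℕ) (hd : 2 ≤ d) :
    ∃ (N : ℕ) (v : ℕ → Fin d → ℝ), (∀ i, ∑ j, (v i j) ^ 2 ≤ 1) ∧
      ∀ ε : ℕ → ℝ, (∀ i, ε i = 1 ∨ ε i = -1) →
        ∃ k ≤ N, (d : ℝ) + 11 / 25 ≤ ∑ j, (∑ i ∈ range k, ε i * v i j) ^ 2 := by
  obtain ⟨m, rfl⟩ := Nat.exists_eq_add_of_le' hd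
  exact ⟨m + 3, gv m, gv_norm m, fun ε hε => main m ε hε⟩

end Vale.Agent.Results.P262.SignedPrefixLower
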