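import Mathlib

/-!
# P262: `σ(d, d + k) ≥ √(d + 1 - 2^(-k))` for every `d ≥ 2` and every `k`

For every `d ≥ 2` and every `k` there is a sequence of `d + k` vectors in the Euclidean unit
ball of `ℝ^d` such that for every choice of signs some prefix sum has squared Euclidean norm at
least `d + 1 - 2^(-k)`.

The sequence: the basis vectors `e_2, ..., e_{d-1}`, followed by `k + 2` unit vectors
`w_0, ..., w_{k+1}` in the plane of the coordinates `0, 1`, built recursively: `w_0 = (1, 0)`,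
`x_0 = w_0`, and `w_{i+1}` is a unit vector with inner product `a_i = (1 - 2^(i-k)) / 2` with
`x_i`, where `x_{i+1} = x_i - w_{i+1}`.  Then `|x_i|^2 = 1 + (2^i - 1) / 2^k`, and a signing of
the planar sequence either follows `± x_i` up to `± x_{k+1}`, of squared norm `3 - 2^(-k)`, or at
its first deviation has a prefix sum `± (x_i + w_{i+1})` of squared norm `3 - 2^(-k)`.
-/

namespace Vale.Agent.Results.P262.SignedPrefixSharp

open Finset

/-- squared Euclidean norm of a point of the plane -/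
def nsq (p : ℝ × ℝ) : ℝ := p.1 ^ 2 + p.2 ^ 2

/-- a unit vector whose inner product with `x` is `a` (for `a ^ 2 ≤ nsq x`, `nsq x > 0`) -/
noncomputable def nextV (a : ℝ) (x : ℝ × ℝ) : ℝ × ℝ :=
  (a / nsq x * x.1 - Real.sqrt (nsq x - a ^ 2) / nsq x * x.2,
   a / nsq x * x.2 + Real.sqrt (nsq x - a ^ 2) / nsq x * x.1)

/-- the schedule of inner products -/
noncomputable def sched (k i : ℕ) : ℝ := (1 - min ((2 : ℝ) ^ i / 2 ^ k) 1) / 2

/-- the distinguished sums `x_i` -/
noncomputable def X (k : ℕ) : ℕ → ℝ × ℝ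
  | 0 => (1, 0)
  | i + 1 => ((X k i).1 - (nextV (sched k i) (X k i)).1,
      (X k i).2 - (nextV (sched k i) (X k i)).2)

/-- the planar sequence `w_i` -/
noncomputable def W (k : ℕ) : ℕ → ℝ × ℝ
  | 0 => (1, 0)
  | i + 1 => nextV (sched k i) (X k i)

lemma alg1 (a p q r s : ℝ) (hr : r ≠ 0) (hpq : p ^ 2 + q ^ 2 = r) (hs : s ^ 2 = r - a ^ 2) :
    (a / r * p - s / r * q) ^ 2 + (a / r * q + s / r * p) ^ 2 = 1 := by
  have h : (a / r * p - s / r * q) ^ 2 + (a / r * q + s / r * p) ^ 2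
      = (a ^ 2 + s ^ 2) * (p ^ 2 + q ^ 2) / r ^ 2 := by
    field_simp
    ring
  rw [h, hs, hpq]
  field_simp
  ring

lemma alg2 (a p q r s : ℝ) (hr : r ≠ 0) (hpq : p ^ 2 + q ^ 2 = r) :
    p * (a / r * p - s / r * q) + q * (a / r * q + s / r * p) = a := by
  have h : p * (a / r * p - s / r * q) + q * (a / r * q + s / r * p)
      = a * (p ^ 2 + q ^ 2) / r := by
    field_simp
    ring
  rw [h, hpq]
  field_simp

lemma nextV_nsq (a : ℝ) (x : ℝ × ℝ) (hx : 1 ≤ nsq x) (ha : a ^ 2 ≤ 1) :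
    (nextV a x).1 ^ 2 + (nextV a x).2 ^ 2 = 1 := by
  have hr : nsq x ≠ 0 := by linarith
  have hs : Real.sqrt (nsq x - a ^ 2) ^ 2 = nsq x - a ^ 2 := Real.sq_sqrt (by linarith)
  exact alg1 a x.1 x.2 (nsq x) (Real.sqrt (nsq x - a ^ 2)) hr rfl hs

lemma nextV_inner (a : ℝ) (x : ℝ × ℝ) (hx : 1 ≤ nsq x) :
    x.1 * (nextV a x).1 + x.2 * (nextV a x).2 = a := by
  have hr : nsq x ≠ 0 := by linarith
  exact alg2 a x.1 x.2 (nsq x) (Real.sqrt (nsq x - a ^ 2)) hr rfl

lemma sub_nsq (a : ℝ) (x : ℝ × ℝ) (hx : 1 ≤ nsq x) (ha : a ^ 2 ≤ 1) :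
    (x.1 - (nextV a x).1) ^ 2 + (x.2 - (nextV a x).2) ^ 2 = nsq x + 1 - 2 * a := by
  have h1 := nextV_nsq a x hx ha
  have h2 := nextV_inner a x hx
  unfold nsq
  linear_combination h1 - 2 * h2

lemma add_nsq (a : ℝ) (x : ℝ × ℝ) (hx : 1 ≤ nsq x) (ha : a ^ 2 ≤ 1) :
    (x.1 + (nextV a x).1) ^ 2 + (x.2 + (nextV a x).2) ^ 2 = nsq x + 1 + 2 * a := by
  have h1 := nextV_nsq a x hx ha
  have h2 := nextV_inner a x hx
  unfold nsq
  linear_combination h1 + 2 * h2

lemma sched_nonneg (k i : ℕ) : 0 ≤ sched k i := by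
  unfold sched
  have := min_le_right ((2 : ℝ) ^ i / 2 ^ k) 1
  linarith

lemma sched_le (k i : ℕ) : sched k i ≤ 1 / 2 := by
  unfold sched
  have h : (0 : ℝ) ≤ min ((2 : ℝ) ^ i / 2 ^ k) 1 := le_min (by positivity) (by norm_num)
  linarith

lemma sched_sq (k i : ℕ) : sched k i ^ 2 ≤ 1 := by
  have h0 := sched_nonneg k i
  have h1 := sched_le k i
  nlinarith

lemma sched_eq (k i : ℕ) (hi : i ≤ k) : sched k i = (1 - (2 : ℝ) ^ i / 2 ^ k) / 2 := by
  unfold sched
  have h : (2 : ℝ) ^ i / 2 ^ k ≤ 1 := by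
    rw [div_le_one (by positivity)]
    exact pow_le_pow_right₀ (by norm_num) hi
  rw [min_eq_left h]

lemma X_step (k i : ℕ) (hx : 1 ≤ nsq (X k i)) :
    nsq (X k (i + 1)) = nsq (X k i) + 1 - 2 * sched k i :=
  sub_nsq (sched k i) (X k i) hx (sched_sq k i)

lemma X_ge (k i : ℕ) : 1 ≤ nsq (X k i) := by
  induction i with
  | zero => simp [X, nsq]
  | succ i ih =>
    rw [X_step k i ih]
    have := sched_le k i
    linarith

lemma X_nsq (k i : ℕ) (hi : i ≤ k + 1) :
    nsq (X k i) = 1 + ((2 : ℝ) ^ i - 1) / 2 ^ k := by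
  induction i with
  | zero => simp [X, nsq]
  | succ i ih =>
    have hi' : i ≤ k := by omega
    rw [X_step k i (X_ge k i), ih (by omega), sched_eq k i hi', pow_succ]
    ring

lemma W_nsq (k i : ℕ) : (W k i).1 ^ 2 + (W k i).2 ^ 2 = 1 := by
  cases i with
  | zero => simp [W]
  | succ i => exact nextV_nsq (sched k i) (X k i) (X_ge k i) (sched_sq k i)

/-- first coordinate of the planar prefix sums -/
noncomputable def PA (k : ℕ) (ε : ℕ → ℝ) (n : ℕ) : ℝ := ∑ i ∈ range n, ε i * (W k i).1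

/-- second coordinate of the planar prefix sums -/
noncomputable def PB (k : ℕ) (ε : ℕ → ℝ) (n : ℕ) : ℝ := ∑ i ∈ range n, ε i * (W k i).2

lemma planar_ind (k : ℕ) (ε : ℕ → ℝ) (hε : ∀ i, ε i = 1 ∨ ε i = -1) (i : ℕ) (hi : i ≤ k + 1) :
    (∃ j ≤ i + 1, 3 - 1 / (2 : ℝ) ^ k ≤ (PA k ε j) ^ 2 + (PB k ε j) ^ 2) ∨
      (PA k ε (i + 1) = ε 0 * (X k i).1 ∧ PB k ε (i + 1) = ε 0 * (X k i).2) := by
  induction i with
  | zero =>
    right
    simp [PA, PB, W, X]
  | succ i ih =>
    rcases ih (by omega) with ⟨j, hj, h⟩ | ⟨hA, hB⟩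
    · left
      exact ⟨j, by omega, h⟩
    · have hi' : i ≤ k := by omega
      have hx : 1 ≤ nsq (X k i) := X_ge k i
      have ha2 : sched k i ^ 2 ≤ 1 := sched_sq k i
      have hA' : PA k ε (i + 1 + 1)
          = PA k ε (i + 1) + ε (i + 1) * (nextV (sched k i) (X k i)).1 := by
        unfold PA
        rw [Finset.sum_range_succ]
        rfl
      have hB' : PB k ε (i + 1 + 1)
          = PB k ε (i + 1) + ε (i + 1) * (nextV (sched k i) (X k i)).2 := by
        unfold PB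
        rw [Finset.sum_range_succ]
        rfl
      have e0 : ε 0 ^ 2 = 1 := by
        rcases hε 0 with h | h <;> rw [h] <;> norm_num
      have hcase : ε (i + 1) = ε 0 ∨ ε (i + 1) = -ε 0 := by
        rcases hε 0 with h | h <;> rcases hε (i + 1) with h' | h' <;> rw [h, h'] <;> simp
      rcases hcase with h | h
      · left
        refine ⟨i + 1 + 1, le_refl _, ?_⟩
        rw [hA', hB', hA, hB, h]
        have hadd := add_nsq (sched k i) (X k i) hx ha2
        have hexp : (ε 0 * (X k i).1 + ε 0 * (nextV (sched k i) (X k i)).1) ^ 2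
            + (ε 0 * (X k i).2 + ε 0 * (nextV (sched k i) (X k i)).2) ^ 2
            = ε 0 ^ 2 * (((X k i).1 + (nextV (sched k i) (X k i)).1) ^ 2
              + ((X k i).2 + (nextV (sched k i) (X k i)).2) ^ 2) := by ring
        rw [hexp, e0, one_mul, hadd, X_nsq k i (by omega), sched_eq k i hi']
        apply le_of_eq
        ring
      · right
        constructor
        · rw [hA', hA, h]
          show ε 0 * (X k i).1 + -ε 0 * (nextV (sched k i) (X k i)).1
            = ε 0 * ((X k i).1 - (nextV (sched k i) (X k i)).1)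
          ring
        · rw [hB', hB, h]
          show ε 0 * (X k i).2 + -ε 0 * (nextV (sched k i) (X k i)).2
            = ε 0 * ((X k i).2 - (nextV (sched k i) (X k i)).2)
          ring

lemma planar (k : ℕ) (ε : ℕ → ℝ) (hε : ∀ i, ε i = 1 ∨ ε i = -1) :
    ∃ j ≤ k + 2, 3 - 1 / (2 : ℝ) ^ k ≤ (PA k ε j) ^ 2 + (PB k ε j) ^ 2 := by
  rcases planar_ind k ε hε (k + 1) (le_refl _) with h | ⟨hA, hB⟩
  · exact h
  · refine ⟨k + 1 + 1, le_refl _, ?_⟩
    rw [hA, hB]
    have hX := X_nsq k (k + 1) (le_refl _)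
    have e0 : ε 0 ^ 2 = 1 := by
      rcases hε 0 with h | h <;> rw [h] <;> norm_num
    have hexp : (ε 0 * (X k (k + 1)).1) ^ 2 + (ε 0 * (X k (k + 1)).2) ^ 2
        = ε 0 ^ 2 * nsq (X k (k + 1)) := by
      unfold nsq
      ring
    rw [hexp, e0, one_mul, hX, pow_succ]
    apply le_of_eq
    field_simp
    ring

/-- the sequence of vectors in `ℝ^(m+2)`, in coordinates: first the basis vectors
`e_2, ..., e_{m+1}`, then the planar sequence `W k` in the coordinates `0, 1` -/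
noncomputable def gv (m : ℕ) (k : ℕ) (i : ℕ) (j : Fin (m + 2)) : ℝ :=
  if i < m then (if j.val = i + 2 then 1 else 0)
  else (if j.val = 0 then (W k (i - m)).1 else if j.val = 1 then (W k (i - m)).2 else 0)

lemma sum_split {m : ℕ} (F : Fin (m + 2) → ℝ) :
    ∑ j, F j = F 0 + F 1 + ∑ j : Fin m, F j.succ.succ := by
  rw [Fin.sum_univ_succ, Fin.sum_univ_succ, ← add_assoc]
  rfl

lemma gv_norm (m : ℕ) (k : ℕ) (i : ℕ) :
    ∑ j, (gv m k i j) ^ 2 ≤ 1 := by
  rw [sum_split]
  by_cases h1 : i < m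
  · have h0 : gv m k i 0 = 0 := by simp [gv, h1]
    have h1' : gv m k i 1 = 0 := by simp [gv, h1]
    have h2 : ∀ j : Fin m, (gv m k i j.succ.succ) ^ 2 = if j.val = i then 1 else 0 := by
      intro j
      simp only [gv, h1, if_true, Fin.val_succ]
      by_cases hj : j.val = i
      · simp [hj]
      · have : ¬ (j.val + 1 + 1 = i + 2) := by omega
        simp [hj, this]
    rw [h0, h1', Finset.sum_congr rfl (fun j _ => h2 j)]
    have h3 : ∑ j : Fin m, (if j.val = i then (1 : ℝ) else 0) = 1 := by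
      rw [Fin.sum_univ_eq_sum_range (fun x => if x = i then (1 : ℝ) else 0) m]
      rw [Finset.sum_ite_eq' (range m) i (fun _ => (1 : ℝ))]
      simp [h1]
    rw [h3]
    norm_num
  · have h2 : ∀ j : Fin m, gv m k i j.succ.succ = 0 := by
      intro j
      simp [gv, h1]
    rw [Finset.sum_congr rfl (fun j _ => by rw [h2 j])]
    have h0 : gv m k i 0 = (W k (i - m)).1 := by simp [gv, h1]
    have h1' : gv m k i 1 = (W k (i - m)).2 := by simp [gv, h1]
    rw [h0, h1', W_nsq k (i - m)]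
    simp

/-- coordinates of the prefix sums of length `m + n` -/
lemma pre (m : ℕ) (k : ℕ) (ε : ℕ → ℝ) (n : ℕ) (j : Fin (m + 2)) :
    ∑ i ∈ range (m + n), ε i * gv m k i j =
      (if j.val = 0 then PA k (fun i => ε (m + i)) n
        else if j.val = 1 then PB k (fun i => ε (m + i)) n
        else ε (j.val - 2)) := by
  rw [Finset.sum_range_add]
  have hfirst : ∑ i ∈ range m, ε i * gv m k i j
      = if 2 ≤ j.val then ε (j.val - 2) else 0 := by
    have hc : ∀ i ∈ range m, ε i * gv m k i j = if j.val - 2 = i ∧ 2 ≤ j.val then ε i else 0 := by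
      intro i hi
      have him : i < m := Finset.mem_range.1 hi
      simp only [gv, him, if_true]
      by_cases hj : j.val = i + 2
      · have : j.val - 2 = i ∧ 2 ≤ j.val := by omega
        simp [hj, this]
      · have : ¬ (j.val - 2 = i ∧ 2 ≤ j.val) := by omega
        simp [hj, this]
    rw [Finset.sum_congr rfl hc]
    by_cases h2 : 2 ≤ j.val
    · simp only [h2, and_true, if_true]
      rw [Finset.sum_ite_eq (range m) (j.val - 2) (fun i => ε i)]
      have : j.val - 2 ∈ range m := by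
        rw [Finset.mem_range]; have := j.isLt; omega
      simp [this]
    · simp [h2]
  have hsecond : ∑ i ∈ range n, ε (m + i) * gv m k (m + i) j
      = if j.val = 0 then PA k (fun i => ε (m + i)) n
        else if j.val = 1 then PB k (fun i => ε (m + i)) n else 0 := by
    have hc : ∀ i ∈ range n, ε (m + i) * gv m k (m + i) j
        = if j.val = 0 then ε (m + i) * (W k i).1
          else if j.val = 1 then ε (m + i) * (W k i).2 else 0 := by
      intro i _
      have hnot : ¬ (m + i < m) := by omega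
      have hsub : m + i - m = i := by omega
      simp only [gv, hnot, if_false, hsub]
      by_cases h0 : j.val = 0
      · simp [h0]
      · by_cases h1 : j.val = 1
        · simp [h1]
        · simp [h0, h1]
    rw [Finset.sum_congr rfl hc]
    by_cases h0 : j.val = 0
    · simp [h0, PA]
    · by_cases h1 : j.val = 1
      · simp [h1, PB]
      · simp [h0, h1]
  rw [hfirst, hsecond]
  by_cases h0 : j.val = 0
  · simp [h0]
  · by_cases h1 : j.val = 1
    · simp [h1]
    · have h2 : 2 ≤ j.val := by omega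
      simp [h0, h1, h2]

/-- squared norm of the prefix sums of length `m + n` -/
lemma pre_norm (m : ℕ) (k : ℕ) (ε : ℕ → ℝ) (hε : ∀ i, ε i = 1 ∨ ε i = -1) (n : ℕ) :
    ∑ j, (∑ i ∈ range (m + n), ε i * gv m k i j) ^ 2
      = (PA k (fun i => ε (m + i)) n) ^ 2 + (PB k (fun i => ε (m + i)) n) ^ 2 + m := by
  have hsq : ∀ i, ε i ^ 2 = 1 := by
    intro i
    rcases hε i with h | h <;> rw [h] <;> norm_num
  have hbase : ∑ j : Fin m, (ε j.val) ^ 2 = (m : ℝ) := by
    simp [hsq]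
  rw [sum_split, pre m k ε n 0, pre m k ε n 1]
  have h3 : ∀ j : Fin m, (∑ i ∈ range (m + n), ε i * gv m k i j.succ.succ) ^ 2
      = (ε j.val) ^ 2 := by
    intro j
    rw [pre m k ε n j.succ.succ]
    simp [Fin.val_succ]
  rw [Finset.sum_congr rfl (fun j _ => h3 j), hbase]
  simp

theorem main (m k : ℕ) (ε : ℕ → ℝ) (hε : ∀ i, ε i = 1 ∨ ε i = -1) :
    ∃ j ≤ m + 2 + k, (m : ℝ) + 3 - 1 / (2 : ℝ) ^ k
      ≤ ∑ c, (∑ i ∈ range j, ε i * gv m k i c) ^ 2 := by
  obtain ⟨j, hj, h⟩ := planar k (fun i => ε (m + i)) (fun i => hε (m + i))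
  refine ⟨m + j, by omega, ?_⟩
  rw [pre_norm m k ε hε j]
  linarith

/-- For every `d ≥ 2` and every `k` there are vectors `v 0, v 1, ...` in the Euclidean unit
ball of `ℝ^d` (coordinates `v i j`, `j : Fin d`) such that for every choice of signs
`ε i ∈ {1, -1}` some sum `∑_{i < j} ε i • v i` of the first `j ≤ d + k` signed vectors has
squared Euclidean norm at least `d + 1 - 1 / 2 ^ k`.  Hence `σ(d, d + k) ≥ √(d + 1 - 2^(-k))`
and `σ(d) ≥ √(d + 1)`. -/
theorem result (d : ℕ) (hd : 2 ≤ d) (k : ℕ) :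
    ∃ v : ℕ → Fin d → ℝ, (∀ i, ∑ c, (v i c) ^ 2 ≤ 1) ∧
      ∀ ε : ℕ → ℝ, (∀ i, ε i = 1 ∨ ε i = -1) →
        ∃ j ≤ d + k, (d : ℝ) + 1 - 1 / (2 : ℝ) ^ k ≤ ∑ c, (∑ i ∈ range j, ε i * v i c) ^ 2 := by
  obtain ⟨m, rfl⟩ := Nat.exists_eq_add_of_le' hd
  refine ⟨gv m k, gv_norm m k, fun ε hε => ?_⟩
  obtain ⟨j, hj, h⟩ := main m k ε hε
  refine ⟨j, hj, ?_⟩
  have hcast : ((m + 2 : ℕ) : ℝ) = (m : ℝ) + 2 := by push_cast; ring
  rw [hcast]
  linarith

end Vale.Agent.Results.P262.SignedPrefixSharp
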