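import Mathlib

/-!
# P262: `σ(d) ≥ √(d + 1)` for every `d ≥ 2`

For every `d ≥ 2` and every `η > 0` there is a finite sequence of vectors in the Euclidean unit
ball of `ℝ^d` such that for every choice of signs some prefix sum has squared Euclidean norm at
least `d + 1 - η`.  Hence `σ(d) ≥ √(d + 1)`.

The sequence: the basis vectors `e_2, ..., e_{d-1}`, followed by a sequence of unit vectors
`w_0, w_1, ...` in the plane of the coordinates `0, 1`, built recursively: `w_0 = (1, 0)`,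
`x_0 = w_0`, and `w_{k+1}` is a unit vector with inner product `a` with `x_k`, where
`x_{k+1} = x_k - w_{k+1}` and `a < 1/2` is close to `1/2`.  A signing of the planar sequence
either follows `± x_k` (whose squared norm `1 + k (1 - 2a)` grows without bound) or at its first
deviation has a prefix sum `± (x_k + w_{k+1})` of squared norm at least `2 + 2a`.
-/

namespace Vale.Agent.Results.P262.SignedPrefixSqrtSucc

open Finset

/-- squared Euclidean norm of a point of the plane -/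
def nsq (p : ℝ × ℝ) : ℝ := p.1 ^ 2 + p.2 ^ 2

/-- a unit vector whose inner product with `x` is `a` (for `a ^ 2 ≤ nsq x`, `nsq x > 0`) -/
noncomputable def nextV (a : ℝ) (x : ℝ × ℝ) : ℝ × ℝ :=
  (a / nsq x * x.1 - Real.sqrt (nsq x - a ^ 2) / nsq x * x.2,
   a / nsq x * x.2 + Real.sqrt (nsq x - a ^ 2) / nsq x * x.1)

/-- the distinguished partial sums `x_k` -/
noncomputable def X (a : ℝ) : ℕ → ℝ × ℝ
  | 0 => (1, 0)
  | k + 1 => ((X a k).1 - (nextV a (X a k)).1, (X a k).2 - (nextV a (X a k)).2)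

/-- the planar sequence `w_k` -/
noncomputable def W (a : ℝ) : ℕ → ℝ × ℝ
  | 0 => (1, 0)
  | k + 1 => nextV a (X a k)

lemma alg1 (a p q r s : ℝ) (hr : r ≠ 0) (hpq : p ^ 2 + q ^ 2 = r) (hs : s ^ 2 = r - a ^ 2) :
    (a / r * p - s / r * q) ^ 2 + (a / r * q + s / r * p) ^ 2 = 1 := by
  have h : (a / r * p - s / r * q) ^ 2 + (a / r * q + s / r * p) ^ 2
      = (a ^ 2 + s ^ 2) * (p ^ 2 + q ^ 2) / r ^ 2 := by
    field_simp
    ring
  rw [h, hs, hpq]
  field_simp
  ring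

lemma alg2 (a p q r s : ℝ) (hr : r ≠ 0) (hpq : p ^ 2 + q ^ 2 = r) :
    p * (a / r * p - s / r * q) + q * (a / r * q + s / r * p) = a := by
  have h : p * (a / r * p - s / r * q) + q * (a / r * q + s / r * p)
      = a * (p ^ 2 + q ^ 2) / r := by
    field_simp
    ring
  rw [h, hpq]
  field_simp

lemma nextV_nsq (a : ℝ) (x : ℝ × ℝ) (hx : 1 ≤ nsq x) (ha : a ^ 2 ≤ 1) :
    (nextV a x).1 ^ 2 + (nextV a x).2 ^ 2 = 1 := by
  have hr : nsq x ≠ 0 := by linarith
  have hs : Real.sqrt (nsq x - a ^ 2) ^ 2 = nsq x - a ^ 2 := Real.sq_sqrt (by linarith)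
  exact alg1 a x.1 x.2 (nsq x) (Real.sqrt (nsq x - a ^ 2)) hr rfl hs

lemma nextV_inner (a : ℝ) (x : ℝ × ℝ) (hx : 1 ≤ nsq x) :
    x.1 * (nextV a x).1 + x.2 * (nextV a x).2 = a := by
  have hr : nsq x ≠ 0 := by linarith
  exact alg2 a x.1 x.2 (nsq x) (Real.sqrt (nsq x - a ^ 2)) hr rfl

lemma sub_nsq (a : ℝ) (x : ℝ × ℝ) (hx : 1 ≤ nsq x) (ha : a ^ 2 ≤ 1) :
    (x.1 - (nextV a x).1) ^ 2 + (x.2 - (nextV a x).2) ^ 2 = nsq x + 1 - 2 * a := by
  have h1 := nextV_nsq a x hx ha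
  have h2 := nextV_inner a x hx
  unfold nsq
  linear_combination h1 - 2 * h2

lemma add_nsq (a : ℝ) (x : ℝ × ℝ) (hx : 1 ≤ nsq x) (ha : a ^ 2 ≤ 1) :
    (x.1 + (nextV a x).1) ^ 2 + (x.2 + (nextV a x).2) ^ 2 = nsq x + 1 + 2 * a := by
  have h1 := nextV_nsq a x hx ha
  have h2 := nextV_inner a x hx
  unfold nsq
  linear_combination h1 + 2 * h2

lemma sq_le_one_of (a : ℝ) (ha0 : 0 ≤ a) (ha : a ≤ 1 / 2) : a ^ 2 ≤ 1 := by nlinarith

lemma X_nsq (a : ℝ) (ha0 : 0 ≤ a) (ha : a ≤ 1 / 2) (k : ℕ) :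
    nsq (X a k) = 1 + k * (1 - 2 * a) := by
  induction k with
  | zero => simp [X, nsq]
  | succ k ih =>
    have hk : (0 : ℝ) ≤ k := Nat.cast_nonneg k
    have hx : 1 ≤ nsq (X a k) := by rw [ih]; nlinarith
    have h := sub_nsq a (X a k) hx (sq_le_one_of a ha0 ha)
    have h' : nsq (X a (k + 1)) = nsq (X a k) + 1 - 2 * a := h
    rw [h', ih]
    push_cast
    ring

lemma X_ge (a : ℝ) (ha0 : 0 ≤ a) (ha : a ≤ 1 / 2) (k : ℕ) : 1 ≤ nsq (X a k) := by
  have hk : (0 : ℝ) ≤ k := Nat.cast_nonneg k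
  rw [X_nsq a ha0 ha k]
  nlinarith

lemma W_nsq (a : ℝ) (ha0 : 0 ≤ a) (ha : a ≤ 1 / 2) (k : ℕ) :
    (W a k).1 ^ 2 + (W a k).2 ^ 2 = 1 := by
  cases k with
  | zero => simp [W]
  | succ k => exact nextV_nsq a (X a k) (X_ge a ha0 ha k) (sq_le_one_of a ha0 ha)

/-- first coordinate of the planar prefix sums -/
noncomputable def PA (a : ℝ) (ε : ℕ → ℝ) (k : ℕ) : ℝ := ∑ i ∈ range k, ε i * (W a i).1

/-- second coordinate of the planar prefix sums -/
noncomputable def PB (a : ℝ) (ε : ℕ → ℝ) (k : ℕ) : ℝ := ∑ i ∈ range k, ε i * (W a i).2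

lemma planar_ind (a : ℝ) (ha0 : 0 ≤ a) (ha : a ≤ 1 / 2) (ε : ℕ → ℝ)
    (hε : ∀ i, ε i = 1 ∨ ε i = -1) (k : ℕ) :
    (∃ j ≤ k + 1, 2 + 2 * a ≤ (PA a ε j) ^ 2 + (PB a ε j) ^ 2) ∨
      (PA a ε (k + 1) = ε 0 * (X a k).1 ∧ PB a ε (k + 1) = ε 0 * (X a k).2) := by
  induction k with
  | zero =>
    right
    simp [PA, PB, W, X]
  | succ k ih =>
    rcases ih with ⟨j, hj, h⟩ | ⟨hA, hB⟩
    · left
      exact ⟨j, by omega, h⟩
    · have hx : 1 ≤ nsq (X a k) := X_ge a ha0 ha k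
      have ha2 : a ^ 2 ≤ 1 := sq_le_one_of a ha0 ha
      have hA' : PA a ε (k + 1 + 1) = PA a ε (k + 1) + ε (k + 1) * (nextV a (X a k)).1 := by
        unfold PA
        rw [Finset.sum_range_succ]
        rfl
      have hB' : PB a ε (k + 1 + 1) = PB a ε (k + 1) + ε (k + 1) * (nextV a (X a k)).2 := by
        unfold PB
        rw [Finset.sum_range_succ]
        rfl
      have e0 : ε 0 ^ 2 = 1 := by
        rcases hε 0 with h | h <;> rw [h] <;> norm_num
      have hcase : ε (k + 1) = ε 0 ∨ ε (k + 1) = -ε 0 := by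
        rcases hε 0 with h | h <;> rcases hε (k + 1) with h' | h' <;> rw [h, h'] <;> simp
      rcases hcase with h | h
      · left
        refine ⟨k + 1 + 1, le_refl _, ?_⟩
        rw [hA', hB', hA, hB, h]
        have hadd := add_nsq a (X a k) hx ha2
        have hexp : (ε 0 * (X a k).1 + ε 0 * (nextV a (X a k)).1) ^ 2
            + (ε 0 * (X a k).2 + ε 0 * (nextV a (X a k)).2) ^ 2
            = ε 0 ^ 2 * (((X a k).1 + (nextV a (X a k)).1) ^ 2
              + ((X a k).2 + (nextV a (X a k)).2) ^ 2) := by ring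
        rw [hexp, e0, one_mul, hadd]
        linarith
      · right
        constructor
        · rw [hA', hA, h]
          show ε 0 * (X a k).1 + -ε 0 * (nextV a (X a k)).1
            = ε 0 * ((X a k).1 - (nextV a (X a k)).1)
          ring
        · rw [hB', hB, h]
          show ε 0 * (X a k).2 + -ε 0 * (nextV a (X a k)).2
            = ε 0 * ((X a k).2 - (nextV a (X a k)).2)
          ring

lemma planar (a : ℝ) (ha0 : 0 ≤ a) (ha : a < 1 / 2) :
    ∃ K : ℕ, ∀ ε : ℕ → ℝ, (∀ i, ε i = 1 ∨ ε i = -1) →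
      ∃ j ≤ K + 1, 2 + 2 * a ≤ (PA a ε j) ^ 2 + (PB a ε j) ^ 2 := by
  obtain ⟨K, hK⟩ := exists_nat_gt ((1 + 2 * a) / (1 - 2 * a))
  refine ⟨K, fun ε hε => ?_⟩
  rcases planar_ind a ha0 ha.le ε hε K with h | ⟨hA, hB⟩
  · exact h
  · refine ⟨K + 1, le_refl _, ?_⟩
    rw [hA, hB]
    have hX := X_nsq a ha0 ha.le K
    have e0 : ε 0 ^ 2 = 1 := by
      rcases hε 0 with h | h <;> rw [h] <;> norm_num
    have hexp : (ε 0 * (X a K).1) ^ 2 + (ε 0 * (X a K).2) ^ 2 = ε 0 ^ 2 * nsq (X a K) := by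
      unfold nsq
      ring
    rw [hexp, e0, one_mul, hX]
    have h12 : 0 < 1 - 2 * a := by linarith
    have h3 := (div_lt_iff₀ h12).1 hK
    linarith

/-- the sequence of vectors in `ℝ^(m+2)`, in coordinates: first the basis vectors
`e_2, ..., e_{m+1}`, then the planar sequence `W a` in the coordinates `0, 1` -/
noncomputable def gv (m : ℕ) (a : ℝ) (i : ℕ) (j : Fin (m + 2)) : ℝ :=
  if i < m then (if j.val = i + 2 then 1 else 0)
  else (if j.val = 0 then (W a (i - m)).1 else if j.val = 1 then (W a (i - m)).2 else 0)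

lemma sum_split {m : ℕ} (F : Fin (m + 2) → ℝ) :
    ∑ j, F j = F 0 + F 1 + ∑ j : Fin m, F j.succ.succ := by
  rw [Fin.sum_univ_succ, Fin.sum_univ_succ, ← add_assoc]
  rfl

lemma gv_norm (m : ℕ) (a : ℝ) (ha0 : 0 ≤ a) (ha : a ≤ 1 / 2) (i : ℕ) :
    ∑ j, (gv m a i j) ^ 2 ≤ 1 := by
  rw [sum_split]
  by_cases h1 : i < m
  · have h0 : gv m a i 0 = 0 := by simp [gv, h1]
    have h1' : gv m a i 1 = 0 := by simp [gv, h1]
    have h2 : ∀ j : Fin m, (gv m a i j.succ.succ) ^ 2 = if j.val = i then 1 else 0 := by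
      intro j
      simp only [gv, h1, if_true, Fin.val_succ]
      by_cases hj : j.val = i
      · simp [hj]
      · have : ¬ (j.val + 1 + 1 = i + 2) := by omega
        simp [hj, this]
    rw [h0, h1', Finset.sum_congr rfl (fun j _ => h2 j)]
    have h3 : ∑ j : Fin m, (if j.val = i then (1 : ℝ) else 0) = 1 := by
      rw [Fin.sum_univ_eq_sum_range (fun x => if x = i then (1 : ℝ) else 0) m]
      rw [Finset.sum_ite_eq' (range m) i (fun _ => (1 : ℝ))]
      simp [h1]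
    rw [h3]
    norm_num
  · have h2 : ∀ j : Fin m, gv m a i j.succ.succ = 0 := by
      intro j
      simp [gv, h1]
    rw [Finset.sum_congr rfl (fun j _ => by rw [h2 j])]
    have h0 : gv m a i 0 = (W a (i - m)).1 := by simp [gv, h1]
    have h1' : gv m a i 1 = (W a (i - m)).2 := by simp [gv, h1]
    rw [h0, h1', W_nsq a ha0 ha (i - m)]
    simp

/-- coordinates of the prefix sums of length `m + k` -/
lemma pre (m : ℕ) (a : ℝ) (ε : ℕ → ℝ) (k : ℕ) (j : Fin (m + 2)) :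
    ∑ i ∈ range (m + k), ε i * gv m a i j =
      (if j.val = 0 then PA a (fun i => ε (m + i)) k
        else if j.val = 1 then PB a (fun i => ε (m + i)) k
        else ε (j.val - 2)) := by
  rw [Finset.sum_range_add]
  have hfirst : ∑ i ∈ range m, ε i * gv m a i j
      = if 2 ≤ j.val then ε (j.val - 2) else 0 := by
    have hc : ∀ i ∈ range m, ε i * gv m a i j = if j.val - 2 = i ∧ 2 ≤ j.val then ε i else 0 := by
      intro i hi
      have him : i < m := Finset.mem_range.1 hi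
      simp only [gv, him, if_true]
      by_cases hj : j.val = i + 2
      · have : j.val - 2 = i ∧ 2 ≤ j.val := by omega
        simp [hj, this]
      · have : ¬ (j.val - 2 = i ∧ 2 ≤ j.val) := by omega
        simp [hj, this]
    rw [Finset.sum_congr rfl hc]
    by_cases h2 : 2 ≤ j.val
    · simp only [h2, and_true, if_true]
      rw [Finset.sum_ite_eq (range m) (j.val - 2) (fun i => ε i)]
      have : j.val - 2 ∈ range m := by
        rw [Finset.mem_range]; have := j.isLt; omega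
      simp [this]
    · simp [h2]
  have hsecond : ∑ i ∈ range k, ε (m + i) * gv m a (m + i) j
      = if j.val = 0 then PA a (fun i => ε (m + i)) k
        else if j.val = 1 then PB a (fun i => ε (m + i)) k else 0 := by
    have hc : ∀ i ∈ range k, ε (m + i) * gv m a (m + i) j
        = if j.val = 0 then ε (m + i) * (W a i).1
          else if j.val = 1 then ε (m + i) * (W a i).2 else 0 := by
      intro i _
      have hnot : ¬ (m + i < m) := by omega
      have hsub : m + i - m = i := by omega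
      simp only [gv, hnot, if_false, hsub]
      by_cases h0 : j.val = 0
      · simp [h0]
      · by_cases h1 : j.val = 1
        · simp [h1]
        · simp [h0, h1]
    rw [Finset.sum_congr rfl hc]
    by_cases h0 : j.val = 0
    · simp [h0, PA]
    · by_cases h1 : j.val = 1
      · simp [h1, PB]
      · simp [h0, h1]
  rw [hfirst, hsecond]
  by_cases h0 : j.val = 0
  · simp [h0]
  · by_cases h1 : j.val = 1
    · simp [h1]
    · have h2 : 2 ≤ j.val := by omega
      simp [h0, h1, h2]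

/-- squared norm of the prefix sums of length `m + k` -/
lemma pre_norm (m : ℕ) (a : ℝ) (ε : ℕ → ℝ) (hε : ∀ i, ε i = 1 ∨ ε i = -1) (k : ℕ) :
    ∑ j, (∑ i ∈ range (m + k), ε i * gv m a i j) ^ 2
      = (PA a (fun i => ε (m + i)) k) ^ 2 + (PB a (fun i => ε (m + i)) k) ^ 2 + m := by
  have hsq : ∀ i, ε i ^ 2 = 1 := by
    intro i
    rcases hε i with h | h <;> rw [h] <;> norm_num
  have hbase : ∑ j : Fin m, (ε j.val) ^ 2 = (m : ℝ) := by
    simp [hsq]
  rw [sum_split, pre m a ε k 0, pre m a ε k 1]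
  have h3 : ∀ j : Fin m, (∑ i ∈ range (m + k), ε i * gv m a i j.succ.succ) ^ 2
      = (ε j.val) ^ 2 := by
    intro j
    rw [pre m a ε k j.succ.succ]
    simp [Fin.val_succ]
  rw [Finset.sum_congr rfl (fun j _ => h3 j), hbase]
  simp

theorem main (m : ℕ) (a : ℝ) (ha0 : 0 ≤ a) (ha : a < 1 / 2) :
    ∃ N : ℕ, ∀ ε : ℕ → ℝ, (∀ i, ε i = 1 ∨ ε i = -1) →
      ∃ k ≤ N, (m : ℝ) + 2 + 2 * a ≤ ∑ j, (∑ i ∈ range k, ε i * gv m a i j) ^ 2 := by
  obtain ⟨K, hK⟩ := planar a ha0 ha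
  refine ⟨m + (K + 1), fun ε hε => ?_⟩
  obtain ⟨j, hj, h⟩ := hK (fun i => ε (m + i)) (fun i => hε (m + i))
  refine ⟨m + j, by omega, ?_⟩
  rw [pre_norm m a ε hε j]
  linarith

/-- For every `d ≥ 2` and every `η > 0` there are `N` and vectors `v 0, ..., v (N - 1)` in the
Euclidean unit ball of `ℝ^d` (coordinates `v i j`, `j : Fin d`) such that for every choice of
signs `ε i ∈ {1, -1}` some prefix sum `∑_{i < k} ε i • v i` with `k ≤ N` has squared Euclidean
norm at least `d + 1 - η`.  Hence `σ(d) ≥ √(d + 1)`. -/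
theorem result (d : ℕ) (hd : 2 ≤ d) (η : ℝ) (hη : 0 < η) :
    ∃ (N : ℕ) (v : ℕ → Fin d → ℝ), (∀ i, ∑ j, (v i j) ^ 2 ≤ 1) ∧
      ∀ ε : ℕ → ℝ, (∀ i, ε i = 1 ∨ ε i = -1) →
        ∃ k ≤ N, (d : ℝ) + 1 - η ≤ ∑ j, (∑ i ∈ range k, ε i * v i j) ^ 2 := by
  obtain ⟨m, rfl⟩ := Nat.exists_eq_add_of_le' hd
  have hmin1 : min η 1 ≤ 1 := min_le_right η 1
  have hmin2 : min η 1 ≤ η := min_le_left η 1
  have hmin3 : 0 < min η 1 := lt_min hη one_pos
  have ha0 : (0 : ℝ) ≤ (1 - min η 1) / 2 := by linarith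
  have ha : (1 - min η 1) / 2 < 1 / 2 := by linarith
  obtain ⟨N, hN⟩ := main m ((1 - min η 1) / 2) ha0 ha
  refine ⟨N, gv m ((1 - min η 1) / 2), gv_norm m _ ha0 ha.le, fun ε hε => ?_⟩
  obtain ⟨k, hk, h⟩ := hN ε hε
  refine ⟨k, hk, ?_⟩
  have hcast : ((m + 2 : ℕ) : ℝ) = (m : ℝ) + 2 := by push_cast; ring
  rw [hcast]
  linarith

end Vale.Agent.Results.P262.SignedPrefixSqrtSucc
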